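import Vale.Agent.P215Z.Core.Defs

/-!
# P215: the lattice model of the charts, and discretised discs
-/

noncomputable section

namespace Vale.Agent.P215Z

abbrev Pt : Type := Fin 4 → ℤ
abbrev Gp : Type := ℤ × ℤ

def ee (k : Fin 4) : Pt := Pi.single k 1

/-- the cell (doubled coordinates) of the cube with index `q` -/
def cell (q : Pt) : Pt := fun j => 2 * q j + 1

/-- the complex of all faces of a set of cubes -/
def Kof (X : Set Pt) : Set Pt := {p | ∃ q ∈ X, ∀ j, |p j - cell q j| ≤ 1}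

def InBox (N : ℕ) (a b : Pt) (q : Pt) : Prop := ∀ j, N * a j ≤ q j ∧ q j < N * b j

instance (N : ℕ) (a b q : Pt) : Decidable (InBox N a b q) := by unfold InBox; infer_instance

/-- the caves, as boxes of unit cubes -/
def caves : List (Pt × Pt) :=
  [(![1, 1, 1, 0], ![8, 3, 4, 3]), (![1, 6, 1, 0], ![8, 8, 4, 3]), (![1, 1, 2, 0], ![14, 2, 3, 3]),
   (![1, 7, 2, 0], ![14, 8, 3, 3]), (![13, 1, 2, 0], ![14, 8, 3, 3]),
   (![13, 4, 2, 0], ![16, 5, 3, 3]),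
   (![9, 1, 15, 0], ![12, 3, 22, 3]), (![9, 6, 15, 0], ![12, 8, 22, 3]),
   (![10, 1, 5, 0], ![11, 2, 22, 3]), (![10, 7, 5, 0], ![11, 8, 22, 3]),
   (![10, 1, 5, 0], ![11, 8, 6, 3]), (![10, 4, 0, 0], ![11, 5, 6, 3]),
   (![0, 3, 7, 0], ![9, 6, 14, 3]), (![12, 3, 7, 0], ![16, 6, 14, 3])]

def boxHi : Pt := ![16, 9, 23, 3]

/-- lower corners of the six plumbing cubes; they have side `3` -/
def org : Lg → Pt
  | (0, true) => ![9, 3, 11, 0]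
  | (0, false) => ![9, 3, 7, 0]
  | (1, true) => ![9, 3, 15, 0]
  | (1, false) => ![9, 3, 19, 0]
  | (2, true) => ![5, 3, 1, 0]
  | (2, false) => ![1, 3, 1, 0]

/-- the coordinate permutations of the plumbings -/
def ppi : Fin 3 → Equiv.Perm (Fin 4) :=
  ![Equiv.swap 0 2 * Equiv.swap 1 3, Equiv.swap 0 3 * Equiv.swap 1 2,
    Equiv.swap 0 1 * Equiv.swap 2 3]

/-- the column direction -/
def kap : Fin 3 → Fin 4 := ![0, 1, 1]

def prm (l : Lg) : Equiv.Perm (Fin 4) := if l.2 then 1 else ppi l.1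

def Uc (N : ℕ) : Set Pt := {q | InBox N 0 boxHi q ∧ ∀ c ∈ caves, ¬ InBox N c.1 c.2 q}
def Qc (N : ℕ) (l : Lg) : Set Pt := {q | InBox N (org l) (org l + 3) q}
def Rc (N : ℕ) : Set Pt := {q | q ∈ Uc N ∧ ∀ i, q ∉ Qc N (i, true)}
def Bc (N : ℕ) : Set Pt := {q | q ∈ Uc N ∧ ∀ i, q ∉ Qc N (i, false)}

def KR (N : ℕ) : Set Pt := Kof (Rc N)
def KB (N : ℕ) : Set Pt := Kof (Bc N)
def KS (N : ℕ) : Set Pt := KR N ∩ KB N ∩ Kof (Uc N)ᶜ

/-- the transition on cube indices -/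
def thC (N : ℕ) (i : Fin 3) (q : Pt) : Pt :=
  fun j => q (ppi i j) + N * (org (i, false) j - org (i, true) (ppi i j))

/-- from the standard cube of side `3 N` to the cube of a leg, in doubled coordinates -/
def dm (N : ℕ) (l : Lg) (p : Pt) : Pt := fun j => p (prm l j) + 2 * N * org l j

def IsStep (a : Pt) : Prop := a = 0 ∨ ∃ k, a = ee k ∨ a = -ee k

def Fold (x y z w : Pt) : Prop := y = z ∧ z = w ∧ IsStep (x - y)

/-- shapes of the image of a grid square -/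
def Shape (q00 q10 q01 q11 : Pt) : Prop :=
  (∃ a b, IsStep a ∧ IsStep b ∧ (∀ k, a k = 0 ∨ b k = 0) ∧
    q10 = q00 + a ∧ q01 = q00 + b ∧ q11 = q00 + a + b) ∨
  Fold q00 q10 q01 q11 ∨ Fold q10 q00 q01 q11 ∨ Fold q01 q00 q10 q11 ∨ Fold q11 q00 q10 q01

def InG (M : ℕ) (v : Gp) : Prop := 0 ≤ v.1 ∧ v.1 ≤ M ∧ 0 ≤ v.2 ∧ v.2 ≤ M
def InSq (M : ℕ) (v : Gp) : Prop := 0 ≤ v.1 ∧ v.1 < M ∧ 0 ≤ v.2 ∧ v.2 < M
def Corner (v w : Gp) : Prop := (w.1 = v.1 ∨ w.1 = v.1 + 1) ∧ (w.2 = v.2 ∨ w.2 = v.2 + 1)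
def OnBd (M : ℕ) (v : Gp) : Prop := InG M v ∧ (v.1 = 0 ∨ v.1 = M ∨ v.2 = 0 ∨ v.2 = M)

/-- A discretised disc whose translates are disjoint. -/
structure DiscData where
  N : ℕ
  hN : 0 < N
  M : ℕ
  hM : 0 < M
  F : F3 → Gp → Pt
  reg : Gp → F3
  equiv : ∀ g i v, F (g * FreeGroup.of i) v = thC N i (F g v)
  shape : ∀ g v, InSq M v →
    Shape (F g v) (F g (v + (1, 0))) (F g (v + (0, 1))) (F g (v + (1, 1)))
  inR : ∀ v, InG M v → F (reg v) v ∈ Rc N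
  sq : ∀ v, InSq M v → (∀ w, Corner v w → reg w = reg v) ∨ ∃ g i, ∀ w, Corner v w →
    F g w ∈ Uc N ∧ ((reg w = g ∧ F g w ∉ Qc N (i, true)) ∨
      (reg w = g * FreeGroup.of i ∧ F g w ∈ Qc N (i, true)))
  sep : ∀ v v', InG M v → InG M v' → F (reg v) v = F (reg v') v' → reg v = reg v'
  bd : ∀ v, OnBd M v → reg v = 1 ∧ F 1 v 0 = 15 * N ∧ F 1 v 3 = 0 ∧
    3 * N ≤ F 1 v 1 ∧ F 1 v 1 ≤ 6 * N ∧ N ≤ F 1 v 2 ∧ F 1 v 2 ≤ 4 * N ∧
    (v.2 = 0 → F 1 v 1 = 3 * N) ∧ (v.2 = M → F 1 v 1 = 6 * N) ∧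
    (v.1 = 0 → F 1 v 2 = N) ∧ (v.1 = M → F 1 v 2 = 4 * N)

end Vale.Agent.P215Z
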