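import Vale.Agent.P215Z.Core.Final
import Vale.Agent.P215Z.Reg.Final
import Vale.Agent.P215Z.Top.Emb
import Vale.Agent.P215Z.Top.Sing
import Vale.Agent.P215Z.Top.Collar
import Vale.Agent.P215Z.Top.Discr

/-!
# P215: assembly
-/

noncomputable section
namespace Vale.Agent.P215Z
open P215.H788

theorem not_lifted0 (D : Lifted0) : False := by
  obtain ⟨D1⟩ := exists_collar D
  obtain ⟨D2⟩ := exists_discData D1
  obtain ⟨s⟩ := exists_setup D2
  exact s.L.not_geo s.geo

theorem not_good_of_inj (Γ : Type) [Group Γ] (ι : FreeGroup (Fin 2) →* Γ)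
    (hι : Function.Injective ι) : ¬ Good Γ := by
  intro h
  obtain ⟨e⟩ := exists_emb
  obtain ⟨φ, hφ⟩ := exists_phi e
  obtain ⟨D, hD⟩ := h G0 (ι.comp φ)
  obtain ⟨L⟩ := hφ D fun k c l => hι ((hD k c l).trans (map_one ι).symm)
  exact not_lifted0 L

theorem exists_singular : ∃ φ : FundamentalGroup G0.Thickening G0.basePt →* FreeGroup (Fin 2),
    ∀ f : C(Disc, G0.Thickening), (∀ z : Circ, f z.toDisc = G0.attach (z, Disc.zero)) →
      (∀ x p, f x = G0.attach p → ‖x.1‖ = 1) →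
      ∃ (x y : Disc) (h : f x = f y) (c : Path G0.basePt (f x)) (l : Path x y),
        φ (FundamentalGroup.fromPath (Path.Homotopic.Quotient.mk
          ((c.trans ((l.map f.continuous).cast rfl h)).trans c.symm))) ≠ 1 := by
  obtain ⟨e⟩ := exists_emb
  obtain ⟨φ, hφ⟩ := exists_phiS e
  refine ⟨φ, fun f h1 h2 => ?_⟩
  by_contra hc
  push Not at hc
  obtain ⟨L⟩ := hφ f h1 h2 hc
  exact not_lifted0 L

end Vale.Agent.P215Z
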